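import Vale.Agent.Results.P015.StreetNetwork

/-!
P015: infinite paths of Gaussian primes with bounded steps cannot stay in a network of streets with
finitely many slopes.
-/

namespace Vale.Agent.Results.P015.NetworkAllSlopes

open Nat Vale.Agent.Results.P015.StreetNetwork

/-- The network of all streets `{|p Re z + q Im z - N m| ≤ H}` with integers `m` and
`(p, q) ≠ (0, 0)`, `|p| ≤ c`, `|q| ≤ c`: the streets run along all lines `p x + q y = N m`. -/
def Network (c N H : ℕ) : Set GaussianInt :=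
  {z | ∃ p q m : ℤ, (p ≠ 0 ∨ q ≠ 0) ∧ |p| ≤ c ∧ |q| ≤ c ∧ |p * z.re + q * z.im - N * m| ≤ H}

theorem aux {c D H R R' M : ℕ} (hR : R = D + H + 2) (hR' : R' = (c + 1) * R) (hM : 0 < M)
    (hdvd : (2 * R' ^ 2)! ∣ M) (x y p q m k : ℤ) (hk : k ≠ 0) (hpq : p ≠ 0 ∨ q ≠ 0)
    (hp : |p| ≤ c) (hq : |q| ≤ c)
    (hz : |p * x + q * y - ((c ! * M : ℕ) : ℤ) * m| ≤ H)
    (h1 : (R : ℤ) - D ≤ |y - ((c ! * M : ℕ) : ℤ) * k|)
    (h2 : |y - ((c ! * M : ℕ) : ℤ) * k| ≤ R) :
    ∃ v : ℤ, |x - M * v| ≤ R' := by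
  have hRz : (R : ℤ) = D + H + 2 := by rw [hR]; push_cast; ring
  have hR'z : (R' : ℤ) = (c + 1) * R := by rw [hR']; push_cast; ring
  have hMR : 4 * R' ≤ M := by
    have a1 : (2 * R' ^ 2)! ≤ M := Nat.le_of_dvd hM hdvd
    have a2 : 2 * R' ^ 2 ≤ (2 * R' ^ 2)! := Nat.self_le_factorial _
    have a3 : 2 ≤ R' := by rw [hR', hR]; nlinarith
    nlinarith
  have hMR' : (4 : ℤ) * R' ≤ M := by exact_mod_cast hMR
  have hc1 : (1 : ℤ) ≤ (c ! : ℕ) := by exact_mod_cast Nat.factorial_pos c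
  have hM0 : (0 : ℤ) < M := by exact_mod_cast hM
  have hR0 : (0 : ℤ) ≤ R := Nat.cast_nonneg R
  have hc0 : (0 : ℤ) ≤ c := Nat.cast_nonneg c
  have hqy : |q * (y - ((c ! * M : ℕ) : ℤ) * k)| ≤ c * R := by
    rw [abs_mul]
    exact mul_le_mul hq h2 (abs_nonneg _) hc0
  by_cases hp0 : p = 0
  · exfalso
    subst hp0
    have hq0 : q ≠ 0 := by
      rcases hpq with h | h
      · exact absurd rfl h
      · exact h
    have hq1 : 1 ≤ |q| := Int.one_le_abs hq0
    have e : q * (y - ((c ! * M : ℕ) : ℤ) * k)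
        = (0 * x + q * y - ((c ! * M : ℕ) : ℤ) * m) + ((c ! * M : ℕ) : ℤ) * (m - q * k) := by ring
    by_cases hm : m - q * k = 0
    · rw [hm, mul_zero, add_zero] at e
      have : |q * (y - ((c ! * M : ℕ) : ℤ) * k)| ≤ H := by rw [e]; exact hz
      rw [abs_mul] at this
      nlinarith [abs_nonneg (y - ((c ! * M : ℕ) : ℤ) * k)]
    · have e2 : ((c ! * M : ℕ) : ℤ) * (m - q * k)
          = q * (y - ((c ! * M : ℕ) : ℤ) * k)
            - (0 * x + q * y - ((c ! * M : ℕ) : ℤ) * m) := by ring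
      have h3 : |((c ! * M : ℕ) : ℤ) * (m - q * k)| ≤ c * R + H := by
        rw [e2]
        exact (abs_sub _ _).trans (by linarith)
      have h4 : (M : ℤ) ≤ |((c ! * M : ℕ) : ℤ) * (m - q * k)| := by
        rw [abs_mul]
        push_cast
        have h5 : |((c ! : ℕ) : ℤ) * (M : ℤ)| = ((c ! : ℕ) : ℤ) * M :=
          abs_of_nonneg (by positivity)
        rw [h5]
        have h6 := Int.one_le_abs hm
        have h7 : (M : ℤ) ≤ ((c ! : ℕ) : ℤ) * M := by nlinarith
        nlinarith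
      nlinarith
  · -- `p` divides `c!`
    obtain ⟨t, ht⟩ : p ∣ ((c ! : ℕ) : ℤ) := by
      have h0 : p.natAbs ≤ c := by
        have h00 : (p.natAbs : ℤ) ≤ c := by rw [Int.natCast_natAbs]; exact hp
        exact_mod_cast h00
      have h1 : p.natAbs ∣ c ! := Nat.dvd_factorial (Int.natAbs_pos.2 hp0) h0
      exact Int.natAbs_dvd.1 (by exact_mod_cast h1)
    refine ⟨t * (m - q * k), ?_⟩
    have e : p * (x - M * (t * (m - q * k)))
        = (p * x + q * y - ((c ! * M : ℕ) : ℤ) * m) - q * (y - ((c ! * M : ℕ) : ℤ) * k) := by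
      push_cast
      rw [ht]
      ring
    have h3 : |p * (x - M * (t * (m - q * k)))| ≤ H + c * R := by
      rw [e]
      exact (abs_sub _ _).trans (by linarith)
    rw [abs_mul] at h3
    have h4 := Int.one_le_abs hp0
    have h5 : |x - M * (t * (m - q * k))| ≤ |p| * |x - M * (t * (m - q * k))| := by
      nlinarith [abs_nonneg (x - M * (t * (m - q * k)))]
    have h6 : (H : ℤ) ≤ R := by rw [hRz]; linarith [(Nat.cast_nonneg D : (0 : ℤ) ≤ D)]
    rw [hR'z]
    linarith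

theorem no_prime {c D H R R' M : ℕ} (hR : R = D + H + 2) (hR' : R' = (c + 1) * R) (hM : 0 < M)
    (hdvd : (2 * R' ^ 2)! ∣ M) (z : GaussianInt) (hz : z ∈ Network c (c ! * M) H) (k : ℤ)
    (hk : k ≠ 0)
    (h : ((R : ℤ) - D ≤ |z.im - ((c ! * M : ℕ) : ℤ) * k| ∧ |z.im - ((c ! * M : ℕ) : ℤ) * k| ≤ R) ∨
      ((R : ℤ) - D ≤ |z.re - ((c ! * M : ℕ) : ℤ) * k| ∧ |z.re - ((c ! * M : ℕ) : ℤ) * k| ≤ R)) :
    ¬ Irreducible z := by
  obtain ⟨p, q, m, hpq, hp, hq, hzz⟩ := hz
  have hc1 : ((c ! : ℕ) : ℤ) ≠ 0 := by exact_mod_cast (Nat.factorial_pos c).ne'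
  have hRR : R ≤ R' := by rw [hR']; nlinarith
  have hRR' : (R : ℤ) ≤ R' := by exact_mod_cast hRR
  have hR2 : R' = 0 + (R' - 2) + 2 := by
    have : 2 ≤ R' := by rw [hR'] at *; nlinarith
    omega
  have hRz : (R : ℤ) = D + H + 2 := by rw [hR]; push_cast; ring
  have hkk : ((c ! : ℕ) : ℤ) * k ≠ 0 := mul_ne_zero hc1 hk
  have e : ((c ! * M : ℕ) : ℤ) * k = M * (((c ! : ℕ) : ℤ) * k) := by push_cast; ring
  rcases h with ⟨h1, h2⟩ | ⟨h1, h2⟩
  · obtain ⟨v, hv⟩ := aux hR hR' hM hdvd z.re z.im p q m k hk hpq hp hq hzz h1 h2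
    rw [e] at h1 h2
    exact composite_near hR2 hM hdvd z v (((c ! : ℕ) : ℤ) * k) (Or.inr hkk) hv (h2.trans hRR')
      (Or.inr (le_trans (by linarith [(Nat.cast_nonneg H : (0 : ℤ) ≤ H)]) h1))
  · obtain ⟨v, hv⟩ := aux hR hR' hM hdvd z.im z.re q p m k hk hpq.symm hq hp
      (by rw [add_comm (q * z.im)]; exact hzz) h1 h2
    rw [e] at h1 h2
    exact composite_near hR2 hM hdvd z (((c ! : ℕ) : ℤ) * k) v (Or.inl hkk) (h2.trans hRR') hv
      (Or.inl (le_trans (by linarith [(Nat.cast_nonneg H : (0 : ℤ) ≤ H)]) h1))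

theorem not_all {c D H R R' M : ℕ} (hR : R = D + H + 2) (hR' : R' = (c + 1) * R) (hM : 0 < M)
    (hdvd : (2 * R' ^ 2)! ∣ M) (z : ℕ → GaussianInt) (hz : IsInfinitePath D z) :
    ¬ ∀ n, z n ∈ Network c (c ! * M) H := by
  intro hs
  obtain ⟨hirr, hinj, hstep⟩ := hz
  set N : ℕ := c ! * M with hN
  have hN0 : 0 < N := Nat.mul_pos (Nat.factorial_pos c) hM
  set k : ℤ := |(z 0).re| + |(z 0).im| + R + 1 with hk
  have hk0 : 0 < k := by positivity
  have hNk : k ≤ N * k := by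
    have : (1 : ℤ) ≤ N := by exact_mod_cast hN0
    nlinarith
  set L : ℤ := N * k - R with hL
  have main : ∀ n, |(z n).re| < L ∧ |(z n).im| < L := by
    intro n
    induction n with
    | zero =>
      constructor
      · have := abs_nonneg (z 0).im; linarith
      · have := abs_nonneg (z 0).re; linarith
    | succ n ih =>
      obtain ⟨s1, s2⟩ := step_bound (hstep n)
      obtain ⟨s1a, s1b⟩ := abs_le.1 s1
      obtain ⟨s2a, s2b⟩ := abs_le.1 s2
      obtain ⟨i1, i2⟩ := ih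
      obtain ⟨i1a, i1b⟩ := abs_lt.1 i1
      obtain ⟨i2a, i2b⟩ := abs_lt.1 i2
      have hRD : (D : ℤ) ≤ R := by push_cast [hR]; linarith
      constructor
      · by_contra hc
        rw [not_lt] at hc
        rcases le_total 0 (z (n + 1)).re with h0 | h0
        · rw [abs_of_nonneg h0] at hc
          refine no_prime hR hR' hM hdvd (z (n + 1)) (hs _) k hk0.ne' (Or.inr ⟨?_, ?_⟩) (hirr _)
          · rw [← hN, abs_of_nonpos (by linarith)]; linarith
          · rw [← hN, abs_of_nonpos (by linarith)]; linarith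
        · rw [abs_of_nonpos h0] at hc
          refine no_prime hR hR' hM hdvd (z (n + 1)) (hs _) (-k) (by linarith)
            (Or.inr ⟨?_, ?_⟩) (hirr _)
          · rw [← hN, abs_of_nonneg (by linarith)]; linarith
          · rw [← hN, abs_of_nonneg (by linarith)]; linarith
      · by_contra hc
        rw [not_lt] at hc
        rcases le_total 0 (z (n + 1)).im with h0 | h0
        · rw [abs_of_nonneg h0] at hc
          refine no_prime hR hR' hM hdvd (z (n + 1)) (hs _) k hk0.ne' (Or.inl ⟨?_, ?_⟩) (hirr _)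
          · rw [← hN, abs_of_nonpos (by linarith)]; linarith
          · rw [← hN, abs_of_nonpos (by linarith)]; linarith
        · rw [abs_of_nonpos h0] at hc
          refine no_prime hR hR' hM hdvd (z (n + 1)) (hs _) (-k) (by linarith)
            (Or.inl ⟨?_, ?_⟩) (hirr _)
          · rw [← hN, abs_of_nonneg (by linarith)]; linarith
          · rw [← hN, abs_of_nonneg (by linarith)]; linarith
  have hfin : (Set.range z).Finite := by
    refine Set.Finite.subset
      ((Finset.finite_toSet (Finset.Icc (-L) L ×ˢ Finset.Icc (-L) L)).image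
        (fun p : ℤ × ℤ => (⟨p.1, p.2⟩ : GaussianInt))) ?_
    rintro _ ⟨n, rfl⟩
    obtain ⟨i1, i2⟩ := main n
    obtain ⟨i1a, i1b⟩ := abs_lt.1 i1
    obtain ⟨i2a, i2b⟩ := abs_lt.1 i2
    refine ⟨((z n).re, (z n).im), ?_, rfl⟩
    simp only [Finset.coe_product, Finset.coe_Icc, Set.mem_prod, Set.mem_Icc]
    exact ⟨⟨i1a.le, i1b.le⟩, ⟨i2a.le, i2b.le⟩⟩
  exact Set.infinite_range_of_injective hinj hfin

/-- For all `c`, `D`, `H` and every positive multiple `N` of the explicit number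
`c! (2 ((c + 1) (D + H + 2))²)!`, every infinite sequence of distinct Gaussian primes with
successive distances at most `D` leaves the network of all streets of width parameter `H` along the
lines `p x + q y = N m`, `|p|, |q| ≤ c`, infinitely often. -/
theorem result (c D H N : ℕ) (hN : 0 < N)
    (hdvd : c ! * (2 * ((c + 1) * (D + H + 2)) ^ 2)! ∣ N)
    (z : ℕ → GaussianInt) (hz : IsInfinitePath D z) :
    ∀ n₀ : ℕ, ∃ n ≥ n₀, z n ∉ Network c N H := by
  intro n₀
  by_contra hc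
  push Not at hc
  obtain ⟨t, rfl⟩ := hdvd
  have hM : 0 < (2 * ((c + 1) * (D + H + 2)) ^ 2)! * t := by
    rw [mul_assoc] at hN
    exact Nat.pos_of_mul_pos_left hN
  refine not_all (c := c) (H := H) (R := D + H + 2) (R' := (c + 1) * (D + H + 2)) rfl rfl hM
    (Dvd.intro _ rfl) (fun n => z (n₀ + n)) ⟨fun n => hz.1 _, ?_, ?_⟩
    (fun n => by rw [← mul_assoc]; exact hc _ (by omega))
  · intro a b hab
    have := hz.2.1 hab
    omega
  · intro n
    exact hz.2.2 (n₀ + n)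

end Vale.Agent.Results.P015.NetworkAllSlopes
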