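import Vale.Agent.P015.Line

/-!
P015: Gaussian-prime-free disks centred on every real line and on every polynomial curve over the
Gaussian integers, and no infinite walk of bounded steps through Gaussian primes stays near such a
line or curve.
-/

namespace Vale.Agent.Results.P015.PrimeFreeDisks

open Polynomial

/-- An infinite path of the graph `G_D`: pairwise distinct Gaussian primes with successive
Euclidean distances at most `D`. -/
def IsInfinitePath (D : ℝ) (z : ℕ → GaussianInt) : Prop :=
  Function.Injective z ∧ (∀ n, Irreducible (z n)) ∧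
    ∀ n, ‖GaussianInt.toComplex (z (n + 1)) - GaussianInt.toComplex (z n)‖ ≤ D

/-- Every nonconstant polynomial curve over the Gaussian integers and every straight line of the
plane carry centres of Gaussian-prime-free disks of every radius, arbitrarily far out; and no
infinite path of `G_D`, for any finite `D`, stays within bounded distance of such a curve or
line. -/
theorem result :
    (∀ F : Polynomial GaussianInt, 0 < F.natDegree → ∀ ρ : ℝ,
      {N : ℕ | ∀ z : GaussianInt,
        ‖GaussianInt.toComplex z - GaussianInt.toComplex (F.eval (N : GaussianInt))‖ ≤ ρ →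
          ¬ Irreducible z}.Infinite) ∧
    (∀ p v : ℂ, v ≠ 0 → ∀ ρ T : ℝ, ∃ s : ℝ, T < s ∧ ∀ z : GaussianInt,
      ‖GaussianInt.toComplex z - (p + (s : ℂ) * v)‖ ≤ ρ → ¬ Irreducible z) ∧
    (∀ F : Polynomial GaussianInt, 0 < F.natDegree → ∀ D W : ℝ, ∀ z : ℕ → GaussianInt,
      IsInfinitePath D z → ∃ n, ∀ t : ℝ, 0 ≤ t →
        W < ‖GaussianInt.toComplex (z n) - (F.map GaussianInt.toComplex).eval (t : ℂ)‖) ∧
    (∀ p v : ℂ, v ≠ 0 → ∀ D W : ℝ, ∀ z : ℕ → GaussianInt,
      IsInfinitePath D z → ∃ n, ∀ t : ℝ,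
        W < ‖GaussianInt.toComplex (z n) - (p + (t : ℂ) * v)‖) := by
  refine ⟨fun F hF ρ => ?_, fun p v hv ρ T => Vale.Agent.P015.line_disc p v hv ρ T,
    fun F hF D W z hz => ?_, fun p v hv D W z hz => ?_⟩
  · refine (Vale.Agent.P015.disc_poly F hF ⌈ρ ^ 2⌉).mono ?_
    intro N hN w hw
    refine hN w ?_
    have h7 : ((Zsqrtd.norm (w - F.eval (N : GaussianInt)) : ℤ) : ℝ) =
        ‖GaussianInt.toComplex w - GaussianInt.toComplex (F.eval (N : GaussianInt))‖ ^ 2 := by
      rw [GaussianInt.intCast_real_norm, Complex.normSq_eq_norm_sq, map_sub]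
    have h8 : ‖GaussianInt.toComplex w - GaussianInt.toComplex (F.eval (N : GaussianInt))‖ ^ 2
        ≤ ρ ^ 2 := pow_le_pow_left₀ (norm_nonneg _) hw 2
    have h9 : ((Zsqrtd.norm (w - F.eval (N : GaussianInt)) : ℤ) : ℝ) ≤ ((⌈ρ ^ 2⌉ : ℤ) : ℝ) := by
      rw [h7]
      exact h8.trans (Int.le_ceil _)
    exact_mod_cast h9
  · by_contra h
    push Not at h
    exact Vale.Agent.P015.no_path F hF D W z hz.1 hz.2.1 hz.2.2 h
  · by_contra h
    push Not at h
    exact Vale.Agent.P015.no_path_line p v hv D W z hz.1 hz.2.1 hz.2.2 h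

end Vale.Agent.Results.P015.PrimeFreeDisks
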