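import Mathlib

/-!
P015: infinite paths of Gaussian primes with bounded steps cannot stay in a network of streets.
-/

namespace Vale.Agent.Results.P015.StreetNetwork

open Nat

/-- The Euclidean distance of two Gaussian integers. -/
noncomputable def gdist (z w : GaussianInt) : ℝ :=
  Real.sqrt (((z.re : ℝ) - w.re) ^ 2 + ((z.im : ℝ) - w.im) ^ 2)

/-- `z` is an infinite path with pairwise distinct vertices in the graph `G_D`: an infinite sequence
of distinct Gaussian primes with successive distances at most `D`. -/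
def IsInfinitePath (D : ℝ) (z : ℕ → GaussianInt) : Prop :=
  (∀ n, Irreducible (z n)) ∧ Function.Injective z ∧ ∀ n, gdist (z n) (z (n + 1)) ≤ D

/-- The street network: all Gaussian integers whose real part or whose imaginary part is at
distance at most `H` from a multiple of `N`. -/
def Streets (N H : ℕ) : Set GaussianInt :=
  {z | ∃ m : ℤ, |z.re - N * m| ≤ H ∨ |z.im - N * m| ≤ H}

theorem not_irreducible_of (N : ℤ) (v w : GaussianInt) (hw1 : 1 < w.norm) (hdvd : w.norm ∣ N)
    (hbig : w.norm < ((N : GaussianInt) * v + w).norm) :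
    ¬ Irreducible ((N : GaussianInt) * v + w) := by
  intro hirr
  obtain ⟨c, hc⟩ := hdvd
  have hdv : (N : GaussianInt) * v + w = w * (star w * c * v + 1) := by
    have h1 : ((w.norm : ℤ) : GaussianInt) = w * star w := Zsqrtd.norm_eq_mul_conj w
    have h2 : (N : GaussianInt) = w * star w * c := by
      rw [hc]; push_cast; rw [h1]
    rw [h2]; ring
  have hn : ((N : GaussianInt) * v + w).norm = w.norm * (star w * c * v + 1).norm := by
    rw [hdv, Zsqrtd.norm_mul]
  rcases hirr.isUnit_or_isUnit hdv with h | h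
  · have := Zsqrtd.norm_eq_one_iff.2 h
    omega
  · have h1 := Zsqrtd.norm_eq_one_iff.2 h
    have h2 : 0 ≤ (star w * c * v + 1).norm := GaussianInt.norm_nonneg _
    have h3 : (star w * c * v + 1).norm = 1 := by omega
    rw [hn, h3, mul_one] at hbig
    exact lt_irrefl _ hbig

theorem norm_eq (w : GaussianInt) : w.norm = w.re ^ 2 + w.im ^ 2 := by
  rw [Zsqrtd.norm_def]; ring

section
variable {D H N R : ℕ}

/-- a Gaussian integer close to, but not too close to, a nonzero multiple of `N` is composite -/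
theorem composite_near (hR : R = D + H + 2) (hN : 0 < N) (hdvd : (2 * R ^ 2)! ∣ N)
    (z : GaussianInt) (m k : ℤ) (hmk : m ≠ 0 ∨ k ≠ 0)
    (h1 : |z.re - N * m| ≤ R) (h2 : |z.im - N * k| ≤ R)
    (h3 : 2 ≤ |z.re - N * m| ∨ 2 ≤ |z.im - N * k|) : ¬ Irreducible z := by
  have hR2 : 2 ≤ R := by omega
  have hNR : 4 * R ≤ N := by
    have a1 : (2 * R ^ 2)! ≤ N := Nat.le_of_dvd hN hdvd
    have a2 : 2 * R ^ 2 ≤ (2 * R ^ 2)! := Nat.self_le_factorial _
    nlinarith
  have hNR' : (4 : ℤ) * R ≤ N := by exact_mod_cast hNR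
  have hR2' : (2 : ℤ) ≤ R := by exact_mod_cast hR2
  set w : GaussianInt := ⟨z.re - N * m, z.im - N * k⟩ with hw
  set v : GaussianInt := ⟨m, k⟩ with hv
  have hz : z = ((N : ℤ) : GaussianInt) * v + w := by
    apply Zsqrtd.ext
    · simp [hv, hw]
    · simp [hv, hw]
  have hwn : w.norm = (z.re - N * m) ^ 2 + (z.im - N * k) ^ 2 := norm_eq w
  have hle : w.norm ≤ 2 * (R : ℤ) ^ 2 := by
    rw [hwn]
    have b1 := sq_le_sq' (by linarith [(abs_le.1 h1).1]) (abs_le.1 h1).2
    have b2 := sq_le_sq' (by linarith [(abs_le.1 h2).1]) (abs_le.1 h2).2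
    linarith
  have hlt : 1 < w.norm := by
    rw [hwn]
    rcases h3 with h | h
    · have : (2 : ℤ) ^ 2 ≤ (z.re - N * m) ^ 2 := by
        rw [← sq_abs (z.re - N * m)]
        exact pow_le_pow_left₀ (by norm_num) h 2
      nlinarith [sq_nonneg (z.im - N * k)]
    · have : (2 : ℤ) ^ 2 ≤ (z.im - N * k) ^ 2 := by
        rw [← sq_abs (z.im - N * k)]
        exact pow_le_pow_left₀ (by norm_num) h 2
      nlinarith [sq_nonneg (z.re - N * m)]
  have hdw : w.norm ∣ (N : ℤ) := by
    obtain ⟨t, ht⟩ : ∃ t : ℕ, w.norm = t := ⟨w.norm.toNat, by omega⟩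
    rw [ht] at hlt hle ⊢
    have c1 : t ∣ (2 * R ^ 2)! := Nat.dvd_factorial (by omega) (by exact_mod_cast hle)
    exact_mod_cast c1.trans hdvd
  have hbig : w.norm < z.norm := by
    refine lt_of_le_of_lt hle ?_
    rw [norm_eq]
    have key : ∀ a b : ℤ, b ≠ 0 → |a - N * b| ≤ R → 2 * (R : ℤ) ^ 2 < a ^ 2 := by
      intro a b hb hab
      have d1 : (N : ℤ) ≤ |(N : ℤ) * b| := by
        rw [abs_mul, Nat.abs_cast]
        have := Int.one_le_abs hb
        nlinarith
      have d2 : |(N : ℤ) * b| ≤ |a| + R := by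
        have : (N : ℤ) * b = a - (a - N * b) := by ring
        rw [this]
        exact (abs_sub _ _).trans (by linarith)
      have d3 : 3 * (R : ℤ) ≤ |a| := by linarith
      rw [← sq_abs a]
      nlinarith
    rcases hmk with h | h
    · have := key _ _ h h1
      nlinarith [sq_nonneg z.im]
    · have := key _ _ h h2
      nlinarith [sq_nonneg z.re]
  rw [hz]
  refine not_irreducible_of (N : ℤ) v w hlt hdw ?_
  rw [← hz]
  exact hbig

/-- no prime of the network lies in the bands just before the streets -/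
theorem no_prime_im (hR : R = D + H + 2) (hN : 0 < N) (hdvd : (2 * R ^ 2)! ∣ N)
    (z : GaussianInt) (k : ℤ) (hk : k ≠ 0) (hz : z ∈ Streets N H)
    (h1 : (R : ℤ) - D ≤ |z.im - N * k|) (h2 : |z.im - N * k| ≤ R) : ¬ Irreducible z := by
  have hNR : 4 * R ≤ N := by
    have a1 : (2 * R ^ 2)! ≤ N := Nat.le_of_dvd hN hdvd
    have a2 : 2 * R ^ 2 ≤ (2 * R ^ 2)! := Nat.self_le_factorial _
    have : 2 ≤ R := by omega
    nlinarith
  obtain ⟨m, h | h⟩ := hz
  · exact composite_near hR hN hdvd z m k (Or.inr hk) (h.trans (by push_cast [hR]; linarith)) h2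
      (Or.inr (le_trans (by push_cast [hR]; linarith) h1))
  · exfalso
    by_cases hmk : m = k
    · subst hmk
      have : (R : ℤ) - D ≤ H := h1.trans h
      push_cast [hR] at this
      linarith
    · have d1 : (N : ℤ) ≤ |(N : ℤ) * (k - m)| := by
        rw [abs_mul, Nat.abs_cast]
        have := Int.one_le_abs (sub_ne_zero.2 (Ne.symm hmk))
        nlinarith [(Nat.cast_nonneg N : (0 : ℤ) ≤ N)]
      have d2 : |(N : ℤ) * (k - m)| ≤ H + R := by
        have : (N : ℤ) * (k - m) = (z.im - N * m) - (z.im - N * k) := by ring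
        rw [this]
        exact (abs_sub _ _).trans (by linarith)
      have d3 : (4 : ℤ) * R ≤ N := by exact_mod_cast hNR
      have d4 : (H : ℤ) + 2 ≤ R := by push_cast [hR]; linarith
      linarith

theorem no_prime_re (hR : R = D + H + 2) (hN : 0 < N) (hdvd : (2 * R ^ 2)! ∣ N)
    (z : GaussianInt) (k : ℤ) (hk : k ≠ 0) (hz : z ∈ Streets N H)
    (h1 : (R : ℤ) - D ≤ |z.re - N * k|) (h2 : |z.re - N * k| ≤ R) : ¬ Irreducible z := by
  have hNR : 4 * R ≤ N := by
    have a1 : (2 * R ^ 2)! ≤ N := Nat.le_of_dvd hN hdvd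
    have a2 : 2 * R ^ 2 ≤ (2 * R ^ 2)! := Nat.self_le_factorial _
    have : 2 ≤ R := by omega
    nlinarith
  obtain ⟨m, h | h⟩ := hz
  · exfalso
    by_cases hmk : m = k
    · subst hmk
      have : (R : ℤ) - D ≤ H := h1.trans h
      push_cast [hR] at this
      linarith
    · have d1 : (N : ℤ) ≤ |(N : ℤ) * (k - m)| := by
        rw [abs_mul, Nat.abs_cast]
        have := Int.one_le_abs (sub_ne_zero.2 (Ne.symm hmk))
        nlinarith [(Nat.cast_nonneg N : (0 : ℤ) ≤ N)]
      have d2 : |(N : ℤ) * (k - m)| ≤ H + R := by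
        have : (N : ℤ) * (k - m) = (z.re - N * m) - (z.re - N * k) := by ring
        rw [this]
        exact (abs_sub _ _).trans (by linarith)
      have d3 : (4 : ℤ) * R ≤ N := by exact_mod_cast hNR
      have d4 : (H : ℤ) + 2 ≤ R := by push_cast [hR]; linarith
      linarith
  · exact composite_near hR hN hdvd z k m (Or.inl hk) h2 (h.trans (by push_cast [hR]; linarith))
      (Or.inl (le_trans (by push_cast [hR]; linarith) h1))

theorem step_bound {D : ℕ} {z w : GaussianInt} (h : gdist z w ≤ D) :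
    |z.re - w.re| ≤ D ∧ |z.im - w.im| ≤ D := by
  unfold gdist at h
  have h1 := (Real.sqrt_le_left (Nat.cast_nonneg D)).1 h
  constructor
  · have : ((z.re : ℝ) - w.re) ^ 2 ≤ (D : ℝ) ^ 2 := by nlinarith [sq_nonneg ((z.im : ℝ) - w.im)]
    have := abs_le_of_sq_le_sq this (Nat.cast_nonneg D)
    exact_mod_cast this
  · have : ((z.im : ℝ) - w.im) ^ 2 ≤ (D : ℝ) ^ 2 := by nlinarith [sq_nonneg ((z.re : ℝ) - w.re)]
    have := abs_le_of_sq_le_sq this (Nat.cast_nonneg D)
    exact_mod_cast this

theorem not_all (hR : R = D + H + 2) (hN : 0 < N) (hdvd : (2 * R ^ 2)! ∣ N)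
    (z : ℕ → GaussianInt) (hz : IsInfinitePath D z) : ¬ ∀ n, z n ∈ Streets N H := by
  intro hs
  obtain ⟨hirr, hinj, hstep⟩ := hz
  set k : ℤ := |(z 0).re| + |(z 0).im| + R + 1 with hk
  have hk0 : 0 < k := by positivity
  have hNk : k ≤ N * k := by
    have : (1 : ℤ) ≤ N := by exact_mod_cast hN
    nlinarith
  set L : ℤ := N * k - R with hL
  have main : ∀ n, |(z n).re| < L ∧ |(z n).im| < L := by
    intro n
    induction n with
    | zero =>
      constructor
      · have := abs_nonneg (z 0).im; linarith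
      · have := abs_nonneg (z 0).re; linarith
    | succ n ih =>
      obtain ⟨s1, s2⟩ := step_bound (hstep n)
      obtain ⟨s1a, s1b⟩ := abs_le.1 s1
      obtain ⟨s2a, s2b⟩ := abs_le.1 s2
      obtain ⟨i1, i2⟩ := ih
      obtain ⟨i1a, i1b⟩ := abs_lt.1 i1
      obtain ⟨i2a, i2b⟩ := abs_lt.1 i2
      have hRD : (D : ℤ) ≤ R := by push_cast [hR]; linarith
      constructor
      · by_contra hc
        rw [not_lt] at hc
        rcases le_total 0 (z (n + 1)).re with h0 | h0
        · rw [abs_of_nonneg h0] at hc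
          refine no_prime_re hR hN hdvd (z (n + 1)) k hk0.ne' (hs _) ?_ ?_ (hirr _)
          · rw [abs_of_nonpos (by linarith)]; linarith
          · rw [abs_of_nonpos (by linarith)]; linarith
        · rw [abs_of_nonpos h0] at hc
          refine no_prime_re hR hN hdvd (z (n + 1)) (-k) (by linarith) (hs _) ?_ ?_ (hirr _)
          · rw [abs_of_nonneg (by linarith)]; linarith
          · rw [abs_of_nonneg (by linarith)]; linarith
      · by_contra hc
        rw [not_lt] at hc
        rcases le_total 0 (z (n + 1)).im with h0 | h0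
        · rw [abs_of_nonneg h0] at hc
          refine no_prime_im hR hN hdvd (z (n + 1)) k hk0.ne' (hs _) ?_ ?_ (hirr _)
          · rw [abs_of_nonpos (by linarith)]; linarith
          · rw [abs_of_nonpos (by linarith)]; linarith
        · rw [abs_of_nonpos h0] at hc
          refine no_prime_im hR hN hdvd (z (n + 1)) (-k) (by linarith) (hs _) ?_ ?_ (hirr _)
          · rw [abs_of_nonneg (by linarith)]; linarith
          · rw [abs_of_nonneg (by linarith)]; linarith
  have hfin : (Set.range z).Finite := by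
    refine Set.Finite.subset
      ((Finset.finite_toSet (Finset.Icc (-L) L ×ˢ Finset.Icc (-L) L)).image
        (fun p : ℤ × ℤ => (⟨p.1, p.2⟩ : GaussianInt))) ?_
    rintro _ ⟨n, rfl⟩
    obtain ⟨i1, i2⟩ := main n
    obtain ⟨i1a, i1b⟩ := abs_lt.1 i1
    obtain ⟨i2a, i2b⟩ := abs_lt.1 i2
    refine ⟨((z n).re, (z n).im), ?_, rfl⟩
    simp only [Finset.coe_product, Finset.coe_Icc, Set.mem_prod, Set.mem_Icc]
    exact ⟨⟨i1a.le, i1b.le⟩, ⟨i2a.le, i2b.le⟩⟩
  exact Set.infinite_range_of_injective hinj hfin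

end

/-- For all `D`, `H` and every positive multiple `N` of the explicit number
`(2 (D + H + 2)²)!`, every infinite sequence of distinct Gaussian primes with successive distances
at most `D` leaves the street network of width `H` and mesh `N` infinitely often. -/
theorem result (D H N : ℕ) (hN : 0 < N) (hdvd : (2 * (D + H + 2) ^ 2)! ∣ N)
    (z : ℕ → GaussianInt) (hz : IsInfinitePath D z) :
    ∀ n₀ : ℕ, ∃ n ≥ n₀, z n ∉ Streets N H := by
  intro n₀
  by_contra hc
  push Not at hc
  refine not_all (R := D + H + 2) rfl hN hdvd (fun n => z (n₀ + n)) ⟨fun n => hz.1 _, ?_, ?_⟩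
    (fun n => hc _ (by omega))
  · intro a b hab
    have := hz.2.1 hab
    omega
  · intro n
    exact hz.2.2 (n₀ + n)

end Vale.Agent.Results.P015.StreetNetwork
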