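import Vale.Agent.P015.Walk

/-!
# P015: bounded-step walks on the Gaussian primes leave thin regions around the axes

For every step bound `D` there is `C > 0` such that every infinite sequence of distinct Gaussian
primes with successive distances at most `D` satisfies, infinitely often,
`|Re z| < exp (C (|Im z| + 1) log (|Im z| + 2))`, and, infinitely often, the same with the roles
of the real and the imaginary part exchanged.
-/

namespace Vale.Agent.Results.P015.ThinRegions

theorem result (D : ℝ) : ∃ C : ℝ, 0 < C ∧ ∀ z : ℕ → GaussianInt, Function.Injective z →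
    (∀ n, Irreducible (z n)) →
    (∀ n, ‖GaussianInt.toComplex (z (n + 1)) - GaussianInt.toComplex (z n)‖ ≤ D) →
    (∀ N, ∃ n ≥ N, |((z n).re : ℝ)|
      < Real.exp (C * (|((z n).im : ℝ)| + 1) * Real.log (|((z n).im : ℝ)| + 2))) ∧
    (∀ N, ∃ n ≥ N, |((z n).im : ℝ)|
      < Real.exp (C * (|((z n).re : ℝ)| + 1) * Real.log (|((z n).re : ℝ)| + 2))) := by
  obtain ⟨C, hC, h⟩ := _root_.P015.walk D
  refine ⟨C, hC, fun z hinj hirr hstep => ⟨h z hinj hirr hstep, ?_⟩⟩
  -- multiply by `i`
  let I : GaussianInt := ⟨0, 1⟩
  have hI : IsUnit I := by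
    refine IsUnit.of_mul_eq_one ⟨0, -1⟩ ?_
    apply Zsqrtd.ext <;> simp [I, Zsqrtd.re_mul, Zsqrtd.im_mul]
  have hre : ∀ x : GaussianInt, (I * x).re = -x.im := fun x => by
    simp [I, Zsqrtd.re_mul]
  have him : ∀ x : GaussianInt, (I * x).im = x.re := fun x => by
    simp [I, Zsqrtd.im_mul]
  have h2 := h (fun n => I * z n) (fun a b hab => hinj (hI.mul_left_cancel hab))
    (fun n => (irreducible_isUnit_mul hI).2 (hirr n))
    (fun n => by
      have e : GaussianInt.toComplex (I * z (n + 1)) - GaussianInt.toComplex (I * z n)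
          = GaussianInt.toComplex I * (GaussianInt.toComplex (z (n + 1))
            - GaussianInt.toComplex (z n)) := by
        rw [map_mul, map_mul]; ring
      have e2 : ‖GaussianInt.toComplex I‖ = 1 := by
        rw [GaussianInt.toComplex_def]
        simp [I]
      rw [e, norm_mul, e2, one_mul]
      exact hstep n)
  intro N
  obtain ⟨n, hn, h3⟩ := h2 N
  refine ⟨n, hn, ?_⟩
  simp only [hre, him, Int.cast_neg, abs_neg] at h3
  exact h3

end Vale.Agent.Results.P015.ThinRegions
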